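/-
R166 Limit (leaves M1, M2).  Limit of states along an ultrafilter is a `State` of Def_0296; states are real on selfadjoint elements.
PROOF TEXT.
 M1 exists_state_of_ultralimit.  For each A the values φ i A lie in the compact closedBall 0 ‖A‖ of ℂ, so they converge along U
   (IsCompact.ultrafilter_le_nhds applied to U.map (fun i => φ i A), or `Ultrafilter.le_nhds_lim` in the compact ball); choose w A.
   w is linear (tendsto_nhds_unique with Tendsto.add, Tendsto.const_smul / const_mul and map_add, map_smul of φ i), ‖w A‖ ≤ ‖A‖ (le_of_tendsto' _.norm).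
   functional := LinearMap.mkContinuous ⟨⟨w, _⟩, _⟩ 1 _.   normalized: limit of the constant 1.
   positive: Complex.continuous_im / continuous_re composed with the limit; im: limit of 0 (tendsto_nhds_unique), re: ge_of_tendsto'.
 M2 state_im_eq_zero_of_selfAdjoint.  For selfadjoint A:  star (1 + A) * (1 + A) - star (1 - A) * (1 - A) = 4 • A  (star_add, star_one, hA.star_eq; noncomm_ring / simp [mul_add, add_mul]; abel).
   Apply ω.functional (map_sub, map_smul), take imaginary parts; both squares have imaginary part 0 (ω.positive).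
Helper lemmas: prefix `lm_`.
-/
import Claimed.Agent.R166.Loc.Basic

set_option autoImplicit false
set_option linter.unusedSectionVars false

namespace Claimed.Agent.R166

open Claims.C0296.Heisenberg
open Filter Topology
open scoped Classical

noncomputable section

variable {d ℓ : ℕ}

theorem exists_state_of_ultralimit {ι : Type*} (U : Ultrafilter ι)
    (φ : ι → QuasiLocal d ℓ →ₗ[ℂ] ℂ) (hφ : ∀ i A, ‖φ i A‖ ≤ ‖A‖) (h1 : ∀ i, φ i 1 = 1)
    (hpos : ∀ i A, (φ i (star A * A)).im = 0 ∧ 0 ≤ (φ i (star A * A)).re) :
    ∃ ω : State d ℓ, ∀ A, Tendsto (fun i => φ i A) (U : Filter ι) (𝓝 (ω.functional A)) := by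
  have hex : ∀ A : QuasiLocal d ℓ, ∃ z : ℂ, Tendsto (fun i => φ i A) (U : Filter ι) (𝓝 z) := by
    intro A
    have hc : IsCompact (Metric.closedBall (0 : ℂ) ‖A‖) := isCompact_closedBall 0 ‖A‖
    have hle : ((U.map (fun i => φ i A) : Ultrafilter ℂ) : Filter ℂ) ≤
        𝓟 (Metric.closedBall (0 : ℂ) ‖A‖) := by
      rw [Filter.le_principal_iff, Ultrafilter.mem_coe, Ultrafilter.mem_map]
      refine Filter.univ_mem' ?_
      intro i
      simp only [Set.mem_preimage, Metric.mem_closedBall, dist_zero_right]
      exact hφ i A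
    obtain ⟨z, _, hz⟩ := hc.ultrafilter_le_nhds _ hle
    exact ⟨z, hz⟩
  choose w hw using hex
  have hadd : ∀ A B, w (A + B) = w A + w B := by
    intro A B
    refine tendsto_nhds_unique (hw (A + B)) ?_
    have := (hw A).add (hw B)
    simpa only [map_add] using this
  have hsmul : ∀ (c : ℂ) A, w (c • A) = c • w A := by
    intro c A
    refine tendsto_nhds_unique (hw (c • A)) ?_
    have := (hw A).const_smul c
    simpa only [map_smul] using this
  have hnorm : ∀ A, ‖w A‖ ≤ 1 * ‖A‖ := by
    intro A
    rw [one_mul]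
    exact le_of_tendsto' (hw A).norm (fun i => hφ i A)
  let L : QuasiLocal d ℓ →ₗ[ℂ] ℂ :=
    { toFun := w
      map_add' := hadd
      map_smul' := fun c A => by simpa using hsmul c A }
  refine ⟨⟨L.mkContinuous 1 hnorm, ?_, ?_⟩, fun A => hw A⟩
  · change w 1 = 1
    refine tendsto_nhds_unique (hw 1) ?_
    simp only [h1]
    exact tendsto_const_nhds
  · intro A
    change (w (star A * A)).im = 0 ∧ 0 ≤ (w (star A * A)).re
    constructor
    · have h2 : Tendsto (fun i => (φ i (star A * A)).im) (U : Filter ι) (𝓝 (w (star A * A)).im) :=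
        (Complex.continuous_im.tendsto _).comp (hw (star A * A))
      refine tendsto_nhds_unique h2 ?_
      simp only [(hpos _ A).1]
      exact tendsto_const_nhds
    · have h2 : Tendsto (fun i => (φ i (star A * A)).re) (U : Filter ι) (𝓝 (w (star A * A)).re) :=
        (Complex.continuous_re.tendsto _).comp (hw (star A * A))
      exact ge_of_tendsto' h2 (fun i => (hpos i A).2)

theorem lm_im_eq_zero_abstract {R : Type*} [Ring R] [StarRing R] [Module ℂ R]
    (f : R →ₗ[ℂ] ℂ) (hf : ∀ a : R, (f (star a * a)).im = 0) {A : R} (hA : IsSelfAdjoint A) :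
    (f A).im = 0 := by
  have key : star (1 + A) * (1 + A) - star (1 - A) * (1 - A) = (4 : ℂ) • A := by
    rw [star_add, star_sub, star_one, hA.star_eq]
    have h4 : (4 : ℂ) • A = A + A + A + A := by
      have : (4 : ℂ) = 1 + 1 + 1 + 1 := by norm_num
      rw [this, add_smul, add_smul, add_smul, one_smul]
    rw [h4]
    simp only [mul_add, add_mul, mul_sub, sub_mul, one_mul, mul_one]
    abel
  have h := congrArg (fun X => (f X).im) key
  simp only [map_sub, map_smul, Complex.sub_im, smul_eq_mul] at h
  rw [hf (1 + A), hf (1 - A)] at h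
  have h2 : ((4 : ℂ) * f A).im = 4 * (f A).im := by
    simp [Complex.mul_im]
  rw [h2] at h
  linarith

theorem state_im_eq_zero_of_selfAdjoint (ω : State d ℓ) {A : QuasiLocal d ℓ}
    (hA : IsSelfAdjoint A) : (ω.functional A).im = 0 :=
  lm_im_eq_zero_abstract (ω.functional : QuasiLocal d ℓ →ₗ[ℂ] ℂ) (fun a => (ω.positive a).1) hA

end

end Claimed.Agent.R166
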