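/-
R166 (Main).  Row 166 = S0349 (spontaneous magnetisation of the quantum Heisenberg ferromagnet, d ≥ 3, + existence of the dynamics).
CONDITIONAL chain (B27), architect helper769.

   def Crux             : the open mathematical statement, in the weakest form the chain uses:
                          RESIDUAL MAGNETISATION ON TORI.  For β ≥ β₀ and every N there are a torus [-n,n]^d, n ≥ N, and a field |h| ≤ 1/(N+1) with
                              Tr[ exp(-β(H_torus - h M)) S^z_0 ] / Tr[ exp(-β(H_torus - h M)) ]  ≥  l/8          (spin S = l/2).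
   theorem result_of_crux (h : Crux) : the frozen statement S0349.

CHAIN.  Abs/*   abstract C*-algebra layer: Hadamard series, Robinson's bound, existence of the dynamics, limits of Gibbs states are KMS (strip form).
        Loc/*, Spin/*, Ham/*   the concrete model of Def_0296 (local algebras, bonds, box / torus Hamiltonians).
        Dyn/Main   DynamicsConverges (unconditional) and convergence of the torus dynamics to the same limit.
        Gibbs/*    finite-volume Gibbs functionals inside the representation of Def_0296 (trace over configurations supported in the box).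
        Trans/*    torus translations, translation invariance.
        Limit      ultrafilter limit of states.
When the crux is proved: put its proof in Claimed/Agent/R166/CruxProof.lean (theorem crux : Crux) and S0349.lean is  `exact result_of_crux crux d ℓ hd hℓ`.
No sorry in this file.
-/
import Claimed.Agent.R166.Abs.KMS
import Claimed.Agent.R166.Dyn.Main
import Claimed.Agent.R166.Gibbs.State
import Claimed.Agent.R166.Gibbs.KMS
import Claimed.Agent.R166.Trans.Inv
import Claimed.Agent.R166.Limit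

set_option autoImplicit false
set_option linter.unusedSectionVars false

namespace Claimed.Agent.R166

open Claims.C0296.Heisenberg
open Filter Topology
open scoped Classical

noncomputable section

/-- The crux at fixed dimension and spin: residual magnetisation on tori in a vanishing field. -/
def CruxAt (d ℓ : ℕ) : Prop :=
  ∃ β₀ : ℝ, 0 < β₀ ∧ ∀ β : ℝ, β₀ ≤ β → ∀ N : ℕ, ∃ n : ℕ, N ≤ n ∧ ∃ h : ℝ,
    |h| ≤ 1 / ((N : ℝ) + 1) ∧
    (ℓ : ℝ) / 8 ≤ (gibbs d ℓ (box d n) (torusK d ℓ n h) β (spinZ d ℓ 0)).re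

/-- The open crux of row 166. -/
def Crux : Prop := ∀ d ℓ : ℕ, 3 ≤ d → 1 ≤ ℓ → CruxAt d ℓ

variable {d ℓ : ℕ}

theorem pres_torusK (n : ℕ) (h : ℝ) : Pres (box d n) (torusK d ℓ n h) :=
  pres_of_mem_Loc (torusK_mem_Loc n h)

/-- the abstract KMS data built from a sequence of tori with vanishing fields. -/
def torusSetup (β : ℝ) (hβ : 0 < β) (nn : ℕ → ℕ) (hn : ∀ j, j ≤ nn j) (hh : ℕ → ℝ)
    (hh1 : ∀ j, |hh j| ≤ 1) (hh0 : Tendsto hh atTop (𝓝 0)) (ω : State d ℓ)
    (hω : ∀ A, Tendsto (fun j => gibbs d ℓ (box d (nn j)) (torusK d ℓ (nn j) (hh j)) β A)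
      ((hyperfilter ℕ : Ultrafilter ℕ) : Filter ℕ) (𝓝 (ω.functional A))) :
    KMSSetup (QuasiLocal d ℓ) ℕ where
  U := hyperfilter ℕ
  φ j := gibbs d ℓ (box d (nn j)) (torusK d ℓ (nn j) (hh j)) β
  hφ j A := norm_gibbs_le (torusK_selfAdjoint _ _) (pres_torusK _ _) β A
  ω A := ω.functional A
  hω := hω
  K j := torusK d ℓ (nn j) (hh j)
  hK j := torusK_selfAdjoint _ _
  τ := dynamics d ℓ
  hτ t B := (tendsto_conjExp_torus nn hn hh hh1 hh0 t B).mono_left
    (by rw [← Nat.cofinite_eq_atTop]; exact hyperfilter_le_cofinite)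
  β := β
  hβ := hβ
  𝔇 := locAll d ℓ
  hD := dense_locAll
  r := rad d ℓ
  hr := rad_pos d ℓ
  hbd B hB := hbd_torus nn hh hh1 B hB
  hkms := by
    rintro A ⟨s, hs⟩ B _
    have hle : ((hyperfilter ℕ : Ultrafilter ℕ) : Filter ℕ) ≤ atTop := by
      rw [← Nat.cofinite_eq_atTop]; exact hyperfilter_le_cofinite
    refine hle (?_ : ∀ᶠ j in atTop, _)
    filter_upwards [eventually_ge_atTop s] with j hj z
    exact gibbs_kms (pres_torusK _ _) β
      (pres_of_mem_Loc (Loc_mono (box_mono (le_trans hj (hn j))) hs)) B z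

theorem result_at (hc : CruxAt d ℓ) :
    DynamicsConverges d ℓ ∧
      ∃ β₀ : ℝ, 0 < β₀ ∧ ∀ β : ℝ, β₀ ≤ β →
        ∃ ω : State d ℓ, TranslationInvariant ω ∧ IsKMS β ω ∧
          (ω.functional (spinZ d ℓ 0)).im = 0 ∧
          (ℓ : ℝ) / 8 ≤ (ω.functional (spinZ d ℓ 0)).re := by
  refine ⟨dynamicsConverges d ℓ, ?_⟩
  obtain ⟨β₀, hβ₀, hc⟩ := hc
  refine ⟨β₀, hβ₀, fun β hβ => ?_⟩
  have hβpos : 0 < β := lt_of_lt_of_le hβ₀ hβ
  choose nn hn hh hh' hm using hc β hβ
  have hle : ((hyperfilter ℕ : Ultrafilter ℕ) : Filter ℕ) ≤ atTop := by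
    rw [← Nat.cofinite_eq_atTop]; exact hyperfilter_le_cofinite
  have hh1 : ∀ j, |hh j| ≤ 1 := by
    intro j
    refine (hh' j).trans ?_
    rw [div_le_one (by positivity)]
    have : (0 : ℝ) ≤ j := Nat.cast_nonneg j
    linarith
  have hh0 : Tendsto hh atTop (𝓝 0) := by
    refine squeeze_zero_norm (a := fun j : ℕ => 1 / ((j : ℝ) + 1)) (fun j => ?_)
      tendsto_one_div_add_atTop_nhds_zero_nat
    rw [Real.norm_eq_abs]; exact hh' j
  obtain ⟨ω, hω⟩ := exists_state_of_ultralimit (hyperfilter ℕ)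
    (fun j => gibbs d ℓ (box d (nn j)) (torusK d ℓ (nn j) (hh j)) β)
    (fun j A => norm_gibbs_le (torusK_selfAdjoint _ _) (pres_torusK _ _) β A)
    (fun j => gibbs_one (torusK_selfAdjoint _ _) (pres_torusK _ _) β)
    (fun j A => gibbs_pos (torusK_selfAdjoint _ _) (pres_torusK _ _) β A)
  refine ⟨ω, ?_, ⟨hβpos, fun A B => (torusSetup β hβpos nn hn hh hh1 hh0 ω hω).kms A B⟩,
    state_im_eq_zero_of_selfAdjoint ω (spinZ_selfAdjoint 0), ?_⟩
  · -- translation invariance
    intro a
    have hloc : ∀ A ∈ (locAll d ℓ : Set (QuasiLocal d ℓ)),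
        ω.functional (translation d ℓ a A) = ω.functional A := by
      rintro A ⟨s, hs⟩
      obtain ⟨m, hm'⟩ := exists_subset_box ({a} : Finset (Site d))
      have ha : a ∈ box d m := hm' (Finset.mem_singleton_self a)
      refine tendsto_nhds_unique (hω (translation d ℓ a A)) ((hω A).congr' ?_)
      refine hle (?_ : ∀ᶠ j in atTop, _)
      filter_upwards [eventually_ge_atTop (m + s)] with j hj
      have hj' : m + s ≤ nn j := le_trans hj (hn j)
      exact (gibbs_translation_eq a (fun x hx => box_mono hj' (add_mem_box ha hx))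
        (le_trans (Nat.le_add_left s m) hj') (hh j) β hs).symm
    have hcont : Continuous fun A : QuasiLocal d ℓ => ω.functional (translation d ℓ a A) := by
      refine ω.functional.continuous.comp ?_
      have hiso : Isometry (translation d ℓ a) := by
        refine AddMonoidHomClass.isometry_of_norm _ (fun A => ?_)
        rw [translation_eq_relabelQL]; exact norm_relabelQL _ A
      exact hiso.continuous
    have hEq := Continuous.ext_on (dense_locAll (d := d) (ℓ := ℓ)) hcont
      ω.functional.continuous hloc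
    exact fun A => congrFun hEq A
  · -- magnetisation
    have h1 : Tendsto (fun j => (gibbs d ℓ (box d (nn j)) (torusK d ℓ (nn j) (hh j)) β
        (spinZ d ℓ 0)).re) ((hyperfilter ℕ : Ultrafilter ℕ) : Filter ℕ)
        (𝓝 (ω.functional (spinZ d ℓ 0)).re) :=
      (Complex.continuous_re.tendsto _).comp (hω (spinZ d ℓ 0))
    exact ge_of_tendsto' h1 hm

theorem result_of_crux (hc : Crux) (d ℓ : ℕ) (hd : 3 ≤ d) (hℓ : 1 ≤ ℓ) :
    DynamicsConverges d ℓ ∧
      ∃ β₀ : ℝ, 0 < β₀ ∧ ∀ β : ℝ, β₀ ≤ β →
        ∃ ω : State d ℓ, TranslationInvariant ω ∧ IsKMS β ω ∧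
          (ω.functional (spinZ d ℓ 0)).im = 0 ∧
          (ℓ : ℝ) / 8 ≤ (ω.functional (spinZ d ℓ 0)).re :=
  result_at (hc d ℓ hd hℓ)

end

end Claimed.Agent.R166
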